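import Vale.Agent.P263.FR.Dual3
import Vale.Agent.P263.FR.H378.Sus1

/-!
# P263C: the Gysin formula

* `int_zero_iff` : `Int c v = 0` if and only if the class on the sphere is a coboundary.
* `gysin` : the integral over `M` of the class `π^* (σ u)` is the integral of `u` over `N`.
-/

open Finset OnePoint Topology
open Vale.Agent.P251.G (LC)

namespace Vale.Agent.P263C15

open Vale.Agent.P263 Vale.Agent.P263.FR
open Vale.Agent.P263.S hiding sn sn_add
open Vale.Agent.P263.E Vale.Agent.P263.H83 Vale.Agent.P263.G2 Vale.Agent.P263.TJ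
open Vale.Agent.P263.T0 CupC

set_option linter.unusedSectionVars false

/-! ### Fubini -/

theorem snoc_comp {α β : Type} {n : ℕ} (g : α → β) (τ : Fin n → α) (a : α) (i : Fin (n + 1)) :
    (Fin.snoc (fun j => g (τ j)) (g a) : Fin (n + 1) → β) i =
      g ((Fin.snoc τ a : Fin (n + 1) → α) i) := by
  refine Fin.lastCases ?_ (fun j => ?_) i
  · simp only [Fin.snoc_last]
  · simp only [Fin.snoc_castSucc]

/-- the last coordinate of the cube -/
def snocM (X : SS) (n : ℕ) : SS.Map ((X.prod (SN 1)).prod (SN n)) (X.prod (SN (n + 1))) where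
  app {p} x := (x.1.1, (Fin.snoc x.2 (x.1.2 0) : Fin (n + 1) → Op p 1))
  nat {p q} f x := by
    refine Prod.ext rfl ?_
    funext i
    exact snoc_comp (fun a : Op q 1 => a.comp f) x.2 (x.1.2 0) i

theorem DstN_snoc {X : SS} (n : ℕ) (w : Cc (X.prod (SN (n + 1)))) :
    DstN (n + 1) w = DstN 1 (DstN n (Cc.pull (snocM X n) w)) := by
  induction n with
  | zero =>
    have e : (snocM X 0).comp (nilM (X.prod (SN 1))) = SS.Map.id _ := by
      apply SS.Map.ext
      rintro p ⟨x, τ⟩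
      refine Prod.ext rfl ?_
      funext i
      obtain rfl : i = 0 := Fin.fin_one_eq_zero i
      rfl
    show _ = DstN 1 (Cc.pull ((snocM X 0).comp (nilM (X.prod (SN 1)))) w)
    rw [e]
    rfl
  | succ n ih =>
    have e : (consM X (n + 1)).comp (SS.pair ((snocM X n).comp (SS.fst _ D1)) (SS.snd _ D1)) =
        (snocM X (n + 1)).comp (consM (X.prod (SN 1)) n) := by
      apply SS.Map.ext
      rintro p ⟨⟨⟨x, a⟩, τ⟩, χ⟩
      refine Prod.ext rfl ?_
      exact Fin.cons_snoc_eq_snoc_cons χ τ (a 0)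
    have h1 : DstN (n + 1 + 1) w = DstN (n + 1) (Dst (Cc.pull (consM X (n + 1)) w)) := rfl
    rw [h1, ih, ← Dst_pull]
    show DstN 1 (DstN n (Dst (Cc.pull ((consM X (n + 1)).comp
      (SS.pair ((snocM X n).comp (SS.fst _ D1)) (SS.snd _ D1))) w))) = _
    rw [e]
    rfl

/-! ### the integral vanishes if and only if the class on the sphere does -/

section zero

variable {M : Type} [TopologicalSpace M] [CompactSpace M] [T2Space M] {d i : ℕ}

/-- an absolute coboundary on a pointed space is a relative one -/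
theorem rel_of_abs {S : Type} [TopologicalSpace S] [CompactSpace S] [T2Space S] (s : S) {n : ℕ} (hn : 0 < n)
    {z a : Cc (sing S)} (hz : Cc.IsDeg (n + 1) z) (hv : Vn (ptS s) z) (ha : z = Cc.d a) :
    ∃ a' : Cc (sing S), Vn (ptS s) a' ∧ z = Cc.d a' := by
  obtain ⟨a₁, h1, h2⟩ : ∃ w, Cc.IsDeg n w ∧ z = Cc.d w :=
    ⟨Cc.comp n a, Cc.isDeg_comp n a, by rw [← Cc.comp_d, ← ha, Cc.comp_eq hz]⟩
  have h3 : Cc.d (Cc.pull (singMap (ContinuousMap.const Unit s)) a₁) = 0 := by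
    rw [← pull_d, ← h2]
    funext p σ
    exact hv p _ fun _ => rfl
  obtain ⟨e, he⟩ := coh_zero.1 (pull_const_null (P := S) hn (h1.pull _) h3 ())
  have h4 : Cc.pull (singMap (ContinuousMap.const S s)) a₁ = Cc.d e := he
  refine ⟨a₁ + Cc.pull (singMap (ContinuousMap.const S s)) a₁, fun p σ hσ => ?_, ?_⟩
  · have h5 : (singMap (ContinuousMap.const S s)).app σ = σ :=
      ContinuousMap.ext fun t => (hσ t).symm
    show a₁ p σ + a₁ p ((singMap (ContinuousMap.const S s)).app σ) = 0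
    rw [h5]
    exact CharTwo.add_self_eq_zero _
  · rw [d_add, h4, TJ.d_d, add_zero, h2]

theorem int_zero_of (hd : 0 < d) {c : C(Sph (d + (i + 1)), TT (i + 1) M)} (hc : c ∞ = ∞)
    {v : Cc (sing M)} (hq : Cc.IsDeg d v) (hv : Cc.d v = 0) {a : Cc (sing (Sph (d + (i + 1))))}
    (ha : Cc.pull (singMap c) (jR i hq hv).b = Cc.d a) : Int c hq hv = 0 := by
  have hdeg : Cc.IsDeg (d + i + 1) (Cc.pull (singMap c) (jR i hq hv).b) :=
    (jR_deg_b hq hv).pull _
  have hvn : Vn (ptS (∞ : Sph (d + (i + 1)))) (Cc.pull (singMap c) (jR i hq hv).b) := by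
    intro p σ hσ
    refine (jR i hq hv).vn_b p _ fun t => ?_
    show c (toC σ t) = ∞
    rw [hσ t, hc]
  obtain ⟨a', h1, h2⟩ := rel_of_abs ∞ (by omega) hdeg hvn ha
  have h3 : Cc.pull (cu c) (jR i hq hv).b = Cc.d (Cc.pull (mu d (i + 1)) a') := by
    rw [← pull_d, ← h2]
    rfl
  have h4 : Vn (bdX (sing (Sph d)) (i + 1)) (Cc.pull (mu d (i + 1)) a') := fun p z hz =>
    h1 p _ (mu_base hz)
  unfold FR.Int
  rw [h3, DstN_d h4, evf hd (v := 0) (coh_zero.2 ⟨_, rfl⟩), evc_zero]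

/-- the form for an arbitrary relative cocycle -/
theorem int_zero_iff (hd : 0 < d) {c : C(Sph (d + (i + 1)), TT (i + 1) M)} (hc : c ∞ = ∞)
    {v : Cc (sing M)} (hq : Cc.IsDeg d v) (hv : Cc.d v = 0) {w : Cc (sing (TT (i + 1) M))}
    (hw : Vn (bsT (i + 1) M) w) (dw : Cc.d w = 0)
    (h : (Cc.cupC (sing M)).Coh (DstN (i + 1) (Cc.pull (muT (i + 1) M) w)) v) :
    Int c hq hv = 0 ↔ ∃ a, Cc.pull (singMap c) w = Cc.d a := by
  obtain ⟨β, -, hβ⟩ := relT_null (w := w + (jR i hq hv).b) (hw.add (jR i hq hv).vn_b)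
    (by rw [d_add, dw, (jR i hq hv).d_b, add_zero]) (by
      rw [pull_add, DstN_add]
      exact coh_sum_zero (h.trans (DstN_jR hq hv).symm))
  have h1 := congrArg (Cc.pull (singMap c)) hβ
  rw [pull_add, pull_d] at h1
  constructor
  · intro h0
    obtain ⟨a, ha⟩ := pull_c_null hd hc hq hv fun _ => h0
    refine ⟨Cc.pull (singMap c) β + a, ?_⟩
    rw [d_add, ← h1, ← ha, add_assoc, cc_add_self, add_zero]
  · rintro ⟨a, ha⟩
    refine int_zero_of hd hc hq hv (a := Cc.pull (singMap c) β + a) ?_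
    rw [d_add, ← h1, ← ha, add_right_comm, cc_add_self, zero_add]

end zero

/-! ### the collapse onto a collar -/

section gysin

variable {M N : Type} [TopologicalSpace M] [CompactSpace M] [T2Space M] [TopologicalSpace N]
  [CompactSpace N] [T2Space N] {K d i : ℕ}

/-- `ℝᴷ × (ℝ × N) = ℝ^(K+1) × N` -/
def apH (K : ℕ) (N : Type) [TopologicalSpace N] :
    (Fin K → ℝ) × ((Fin 1 → ℝ) × N) ≃ₜ (Fin (K + 1) → ℝ) × N :=
  (Homeomorph.prodAssoc _ _ N).symm.trans
    ((Fin.appendHomeomorph (X := ℝ) K 1).prodCongr (Homeomorph.refl N))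

/-- `Sᴷ ∧ (ℝ × N)⁺ → (ℝ^(K+1) × N)⁺` -/
noncomputable def jT (z : Sph K) (w : TT 1 N) : TT (K + 1) N :=
  (apH K N).onePointCongr (LC.smash z w)

theorem jT_coe (v : Fin K → ℝ) (s : Fin 1 → ℝ) (p : N) :
    jT (v : Sph K) (((s, p) : (Fin 1 → ℝ) × N) : TT 1 N) =
      (((Fin.append v s, p) : (Fin (K + 1) → ℝ) × N) : TT (K + 1) N) := rfl

theorem jT_infty_left (w : TT 1 N) : jT (∞ : Sph K) w = ∞ := rfl

theorem jT_infty_right (z : Sph K) : jT z (∞ : TT 1 N) = ∞ := by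
  rw [jT, LC.smash_infty_right]
  rfl

theorem continuous_jT : Continuous fun z : Sph K × TT 1 N => jT z.1 z.2 :=
  (Homeomorph.continuous _).comp LC.continuous_smash

theorem jT_smP (z : Sph K) (s : Sph 1) (p : N) :
    jT z (smP 1 N (s, p)) = smP (K + 1) N (join2 z s, p) := by
  induction z using OnePoint.rec with
  | infty => rw [jT_infty_left, join2_infty_left, smP_infty]
  | coe z =>
    induction s using OnePoint.rec with
    | infty => rw [smP_infty, jT_infty_right, join2_infty_right, smP_infty]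
    | coe s => rfl

/-- the cube -/
noncomputable def mJ (K : ℕ) (N : Type) [TopologicalSpace N] [CompactSpace N] [T2Space N] :
    SS.Map ((sing (TT 1 N)).prod (SN K)) (sing (TT (K + 1) N)) :=
  ⟨fun {p} z => ofC (⟨fun t : Dl p => jT (cxC z.2 t) (toC z.1 t), continuous_jT.comp
      ((cxC z.2).continuous.prodMk (toC z.1).continuous)⟩ : C(Dl p, TT (K + 1) N)), fun f z => by
    apply ContinuousMap.ext
    intro t
    exact congrArg (fun v => jT v (toC z.1 (dmap f t))) (DFunLike.congr_fun (cxC_comp f z.2) t)⟩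

theorem mJ_app {p : ℕ} (z : ((sing (TT 1 N)).prod (SN K)).obj p) (t : Dl p) :
    toC ((mJ K N).app z) t = jT (cxC z.2 t) (toC z.1 t) := rfl

theorem cxC_snoc {n p : ℕ} (τ : Fin n → Op p 1) (χ : Fin 1 → Op p 1) (t : Dl p) :
    cxC (Fin.snoc τ (χ 0) : Fin (n + 1) → Op p 1) t = join2 (cxC τ t) (cxC χ t) := by
  rw [cxC_apply, cxC_apply, cxC_apply, join2_tup, Fin.append_right_eq_snoc]
  congr 1
  funext j
  exact (snoc_comp (fun a : Op p 1 => GB.loopU (chiI a t)) τ (χ 0) j).symm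

theorem muT_snoc : (muT (K + 1) N).comp (snocM (sing N) K) =
    (mJ K N).comp (timesN (muT 1 N) K) := by
  apply SS.Map.ext
  rintro p ⟨⟨x, χ⟩, τ⟩
  apply ContinuousMap.ext
  intro t
  exact (congrArg (fun v => smP (K + 1) N (v, toC x t)) (cxC_snoc τ χ t)).trans
    (jT_smP _ _ _).symm

theorem vn_DstN {X : SS} {A : Sb X} (n : ℕ) {w : Cc (X.prod (SN n))}
    (h : Vn (A.comap (SS.fst X (SN n))) w) : Vn A (DstN n w) := by
  induction n with
  | zero => exact fun p x hx => h p _ hx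
  | succ n ih => exact ih (Vn_Dst fun p x hx => h p _ hx)

/-- partial integration of the suspension class -/
theorem dst_mJ {B : Cc (sing (TT (K + 1) N))} (hB : Vn (bsT (K + 1) N) B) (dB : Cc.d B = 0)
    {b : Cc (sing (TT 1 N))} (hb : Vn (bsT 1 N) b) (db : Cc.d b = 0)
    (h : (Cc.cupC (sing N)).Coh (DstN (K + 1) (Cc.pull (muT (K + 1) N) B))
      (DstN 1 (Cc.pull (muT 1 N) b))) :
    (Cc.cupC (sing (TT 1 N))).Coh (DstN K (Cc.pull (mJ K N) B)) b := by
  have h1 : Vn (bdX (sing (TT 1 N)) K) (Cc.pull (mJ K N) B) := fun p z hz =>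
    hB p _ fun t => by
      have h3 : cxC z.2 t = ∞ := cxC_base hz t
      rw [mJ_app, h3, jT_infty_left]
  have h2 : Vn (bsT 1 N) (DstN K (Cc.pull (mJ K N) B)) := vn_DstN K fun p z hz =>
    hB p _ fun t => by
      have h3 : toC z.1 t = ∞ := hz t
      rw [mJ_app, h3, jT_infty_right]
  have h3 : Cc.d (DstN K (Cc.pull (mJ K N) B)) = 0 := by
    rw [← DstN_d h1, ← pull_d, dB, pull_zero, DstN_zero]
  have h4 : DstN 1 (Cc.pull (muT 1 N) (DstN K (Cc.pull (mJ K N) B))) =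
      DstN (K + 1) (Cc.pull (muT (K + 1) N) B) := by
    rw [DstN_snoc K, ← DstN_pull]
    show _ = DstN 1 (DstN K (Cc.pull ((muT (K + 1) N).comp (snocM (sing N) K)) B))
    rw [muT_snoc]
    rfl
  obtain ⟨β, -, hβ⟩ := relT_null (w := DstN K (Cc.pull (mJ K N) B) + b) (h2.add hb)
    (by rw [d_add, h3, db, add_zero]) (by
      rw [pull_add, DstN_add, h4]
      exact coh_sum_zero h)
  exact ⟨β, hβ⟩

theorem aab {X : SS} (a b : Cc X) : a + b + b = a := by
  rw [add_assoc, cc_add_self, add_zero]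

theorem aba {X : SS} (a b : Cc X) : a + (a + b) = b := by
  rw [← add_assoc, cc_add_self, zero_add]

theorem z2_eq {a b : ZMod 2} (h : a = 0 ↔ b = 0) : a = b := by
  revert a b
  decide

/-- **The Gysin formula.** -/
theorem gysin (hd : 0 < d) {cM : C(Sph (d + 1 + (i + 1)), TT (i + 1) M)} (hcM : cM ∞ = ∞)
    {c : C(Sph (d + (i + 1 + 1)), TT (i + 1 + 1) N)} (hc : c ∞ = ∞) {π : C(M, TT 1 N)}
    {Pi : C(TT (i + 1) M, TT (i + 1 + 1) N)} (hPi0 : Pi ∞ = ∞)
    (hPi : ∀ z y, Pi (smP (i + 1) M (z, y)) = jT z (π y))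
    (ψ : Sph (d + 1 + (i + 1)) ≃ₜ Sph (d + (i + 1 + 1)))
    (hs : (Pi.comp cM).Homotopic (c.comp (ψ : C(_, _)))) {u : Cc (sing N)} (hu : Cc.IsDeg d u)
    (du : Cc.d u = 0) {x : Cc (sing M)} (hx : Cc.IsDeg (d + 1) x) (dx : Cc.d x = 0)
    (h : (Cc.cupC (sing M)).Coh (Cc.pull (singMap π) (jR 0 hu du).b) x) :
    Int cM hx dx = Int (i := i + 1) c hu du := by
  obtain ⟨B, hB⟩ : ∃ B, B = (jR (i + 1) hu du).b := ⟨_, rfl⟩
  have vB : Vn (bsT (i + 1 + 1) N) B := hB ▸ (jR (i + 1) hu du).vn_b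
  have dB : Cc.d B = 0 := hB ▸ (jR (i + 1) hu du).d_b
  have sB : (Cc.cupC (sing N)).Coh (DstN (i + 1 + 1) (Cc.pull (muT (i + 1 + 1) N) B)) u :=
    hB ▸ DstN_jR hu du
  have h1 := dst_mJ vB dB (jR 0 hu du).vn_b (jR 0 hu du).d_b (sB.trans (DstN_jR hu du).symm)
  have e : (singMap Pi).comp (muT (i + 1) M) =
      (mJ (i + 1) N).comp (timesN (singMap π) (i + 1)) := by
    apply SS.Map.ext
    intro p z
    apply ContinuousMap.ext
    intro t
    exact hPi _ _
  have h2 : DstN (i + 1) (Cc.pull (muT (i + 1) M) (Cc.pull (singMap Pi) B)) =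
      Cc.pull (singMap π) (DstN (i + 1) (Cc.pull (mJ (i + 1) N) B)) := by
    rw [← DstN_pull]
    show DstN (i + 1) (Cc.pull ((singMap Pi).comp (muT (i + 1) M)) B) = _
    rw [e]
    rfl
  have h3 : (Cc.cupC (sing M)).Coh
      (DstN (i + 1) (Cc.pull (muT (i + 1) M) (Cc.pull (singMap Pi) B))) x := by
    rw [h2]
    exact (h1.map (Cc.pullHom (singMap π))).trans h
  have h4 : Vn (bsT (i + 1) M) (Cc.pull (singMap Pi) B) := fun p σ hσ => vB p _ fun t => by
    show Pi (toC σ t) = ∞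
    rw [hσ t, hPi0]
  have h5 := int_zero_iff (d := d + 1) (by omega) hcM hx dx h4
    (by rw [← pull_d, dB, pull_zero]) h3
  have h6 := int_zero_iff (i := i + 1) hd hc hu du vB dB sB
  obtain ⟨f, hf⟩ : ∃ f : C(Sph (d + 1 + (i + 1)), Sph (d + (i + 1 + 1))), f = ψ := ⟨_, rfl⟩
  obtain ⟨g, hg⟩ : ∃ g : C(Sph (d + (i + 1 + 1)), Sph (d + 1 + (i + 1))), g = ψ.symm := ⟨_, rfl⟩
  have e2 : f.comp g = ContinuousMap.id _ := by
    rw [hf, hg]
    exact ContinuousMap.ext fun z => ψ.apply_symm_apply z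
  rw [← hf] at hs
  obtain ⟨a, ha⟩ := pull_htpc hs dB
  have ha' : Cc.pull (singMap cM) (Cc.pull (singMap Pi) B) +
      Cc.pull (singMap f) (Cc.pull (singMap c) B) = Cc.d a := ha
  refine z2_eq (h5.trans (Iff.trans ?_ h6.symm))
  constructor
  · rintro ⟨a', h7⟩
    have h8 : Cc.pull (singMap f) (Cc.pull (singMap c) B) = Cc.d (a' + a) := by
      rw [d_add, ← ha', ← h7]
      exact (aba _ _).symm
    have h9 := congrArg (Cc.pull (singMap g)) h8
    have h10 : Cc.pull (singMap g) (Cc.pull (singMap f) (Cc.pull (singMap c) B)) =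
        Cc.pull (singMap (f.comp g)) (Cc.pull (singMap c) B) := rfl
    rw [h10, e2, pull_d] at h9
    exact ⟨_, h9⟩
  · rintro ⟨a', h7⟩
    refine ⟨a + Cc.pull (singMap f) a', ?_⟩
    rw [d_add, ← ha', ← pull_d, ← h7]
    exact (aab _ _).symm

end gysin

end Vale.Agent.P263C15
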