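import Vale.Agent.P263C25.Rows

/-!
# P263C: homotopic maps to `Q₀S⁰` have homotopic representatives
-/

open Topology Set OnePoint CategoryTheory

namespace Vale.Agent.P263C15

open Vale.Agent.P263 Vale.Agent.P263.T0 Vale.Agent.P263.TJ Vale.Agent.P263.FR

/-- the adjoints of homotopic maps are homotopic -/
theorem adjS_htp {d r : ℕ} (L : C(unitInterval × Sph d, Om r)) (hL : ∀ t, L (t, ∞) = Om.const r)
    {A A' : C(Sph d, Om r)} (hA : A ∞ = Om.const r) (hA' : A' ∞ = Om.const r)
    (h0 : ∀ x, L (0, x) = A x) (h1 : ∀ x, L (1, x) = A' x) :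
    (adjS A hA).HomotopicRel (adjS A' hA') {∞} := by
  let B : unitInterval → C(Sph d, Om r) := fun t => ⟨fun x => L (t, x), by fun_prop⟩
  let G : unitInterval × Sph (d + r) → Sph r := fun q => adjS (B q.1) (hL q.1) q.2
  have hq : IsQuotientMap fun z : unitInterval × (Sph d × Sph r) => (z.1, join2 z.2.1 z.2.2) := by
    have h2 : Continuous fun z : unitInterval × (Sph d × Sph r) => (z.1, join2 z.2.1 z.2.2) :=
      continuous_fst.prodMk (continuous_join2.comp continuous_snd)
    refine h2.isClosedMap.isQuotientMap h2 fun z => ?_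
    obtain ⟨w, hw⟩ := (isQuotientMap_join2 (m := d) (k := r)).surjective z.2
    exact ⟨(z.1, w), Prod.ext rfl hw⟩
  have hG : Continuous G := by
    rw [hq.continuous_iff]
    have e : (G ∘ fun z : unitInterval × (Sph d × Sph r) => (z.1, join2 z.2.1 z.2.2)) =
        fun z => L (z.1, z.2.1) z.2.2 := funext fun z => adjS_join2 (B z.1) (hL z.1) _ _
    rw [e]
    have h3 : Continuous fun z : unitInterval × (Sph d × Sph r) => (L (z.1, z.2.1)).1 :=
      continuous_subtype_val.comp (L.continuous.comp (by fun_prop))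
    exact h3.eval (by fun_prop)
  have e0 : B 0 = A := ContinuousMap.ext h0
  have e1 : B 1 = A' := ContinuousMap.ext h1
  refine hrel_of G hG (fun z => ?_) (fun z => ?_) fun t z hz => ?_
  · subst e0
    rfl
  · subst e1
    rfl
  · rw [Set.mem_singleton_iff.1 hz, adjS_infty]
    exact adjS_infty _ _

theorem reps : P263C25.REPS := by
  intro d g g' ⟨H⟩
  let K : C(unitInterval × Sph d, QS0) :=
    (⟨Subtype.val, continuous_subtype_val⟩ : C(pathComponent base, QS0)).comp H.toContinuousMap
  obtain ⟨r₀, f, hf⟩ := exists_factor K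
  refine ⟨r₀, fun r hr G G' hG hG' => ?_⟩
  have hx : ∀ x, ∃ y, toQ r y = K x := fun x => range_toQ_mono hr ⟨f x, hf x⟩
  choose l hl using hx
  have hc : Continuous l := by
    rw [(isClosedEmbedding_toQ r).isEmbedding.continuous_iff]
    exact K.continuous.congr fun x => (hl x).symm
  obtain ⟨A, hA, e⟩ := hG.exists_adjS
  obtain ⟨A', hA', e'⟩ := hG'.exists_adjS
  show G.hom.HomotopicRel G'.hom {∞}
  rw [e, e']
  refine adjS_htp ⟨l, hc⟩ (fun t => toQ_injective r ?_) _ _ (fun x => toQ_injective r ?_)
    fun x => toQ_injective r ?_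
  · refine (hl _).trans (Eq.trans ?_ (toQ_const r).symm)
    exact congrArg Subtype.val ((H.eq_fst t rfl).trans g.2)
  · exact (hl _).trans ((congrArg Subtype.val (H.apply_zero x)).trans (hA.eq x).symm)
  · exact (hl _).trans ((congrArg Subtype.val (H.apply_one x)).trans (hA'.eq x).symm)

end Vale.Agent.P263C15
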